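import Vale.Agent.P022D.R.Defs
import Vale.Agent.P022F.Sel.Defs

namespace Vale.Agent.P022F.R.Dat
export Vale.Agent.P022D.R.Dat (
  T red dne d10 mk lam g0 l0 rb surj n01 g1 d01 hl0)
end Vale.Agent.P022F.R.Dat

namespace Vale.Agent.P022F.R.Obj
export Vale.Agent.P022D.R.Obj (
  nm mk π alg β α one off opn ρ loc res dg fin inv ι mat fr ev)
end Vale.Agent.P022F.R.Obj

namespace Vale.Agent.P022F.R
export Vale.Agent.P022D.R (
  Fam PS Ent Ty UNIV Closed Obj Unr Loc Univ Cl Dat W Crd Hom)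
end Vale.Agent.P022F.R

namespace Vale.Agent.P022F.R.Univ
export Vale.Agent.P022D.R.Univ (
  rng gen mk crd res cst nat)
end Vale.Agent.P022F.R.Univ

namespace Vale.Agent.P022F.R.Closed
export Vale.Agent.P022D.R.Closed (
  push pull mk)
end Vale.Agent.P022F.R.Closed

namespace Vale.Agent.P022F.R.Hom
export Vale.Agent.P022D.R.Hom (
  α ρ ι mk)
end Vale.Agent.P022F.R.Hom

namespace Vale.Agent.P022F.R.Loc
export Vale.Agent.P022D.R.Loc (
  nat mk res tan)
end Vale.Agent.P022F.R.Loc
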